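import Vale.Agent.Lib.P339.AddLabel

namespace Vale.Agent.Results.P339.AlphabetEnlargement

open Vale.Agent.Lib.P339

/-- For `q ≥ 2` and every `d`, every 2-to-1 game `G` with alphabets of sizes `2q`, `q`
has a companion 2-to-1 game `G'` with alphabets of sizes `2(q+d)`, `q+d`, of linear size,
whose labelings correspond to those of `G` with weights transformed by
`w ↦ 1 - (1 - w) / 3 ^ d`: every labeling of `G` of weight `w` gives a labeling of `G'` of
exactly that transformed weight, and every labeling of `G'` is dominated by the transformed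
weight of some labeling of `G`. -/
theorem result (q : ℕ) (hq : 2 ≤ q) (d : ℕ) (G : Game q) :
    ∃ G' : Game (q + d),
      Fintype.card G'.U = Fintype.card G.U + d * Fintype.card G.V ∧
      Fintype.card G'.V = Fintype.card G.V ∧
      Fintype.card G'.E = Fintype.card G.E + 2 * d * Fintype.card G.V ∧
      (∀ (A : G.U → Fin (2 * q)) (B : G.V → Fin q),
        ∃ (A' : G'.U → Fin (2 * (q + d))) (B' : G'.V → Fin (q + d)),
          G'.satWeight A' B' = 1 - (1 - G.satWeight A B) / 3 ^ d) ∧
      (∀ (A' : G'.U → Fin (2 * (q + d))) (B' : G'.V → Fin (q + d)),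
        ∃ (A : G.U → Fin (2 * q)) (B : G.V → Fin q),
          G'.satWeight A' B' ≤ 1 - (1 - G.satWeight A B) / 3 ^ d) := by
  induction d with
  | zero =>
    refine ⟨G, by simp, rfl, by simp, ?_, ?_⟩
    · intro A B
      exact ⟨A, B, by simp⟩
    · intro A' B'
      exact ⟨A', B', by simp⟩
  | succ d ih =>
    obtain ⟨G1, hU, hV, hE, hc, hs⟩ := ih
    have hq1 : 2 ≤ q + d := by omega
    refine ⟨G1.addLabel hq1, ?_, ?_, ?_, ?_, ?_⟩
    · rw [G1.addLabel_card_U hq1, hU, hV]
      ring
    · rw [G1.addLabel_card_V hq1, hV]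
    · rw [G1.addLabel_card_E hq1, hE, hV]
      ring
    · intro A B
      obtain ⟨A1, B1, h1⟩ := hc A B
      obtain ⟨A2, B2, h2⟩ := G1.addLabel_complete hq1 A1 B1
      refine ⟨A2, B2, ?_⟩
      rw [h2, h1, pow_succ]
      field_simp
      ring
    · intro A' B'
      obtain ⟨A1, B1, h1⟩ := G1.addLabel_sound hq1 A' B'
      obtain ⟨A, B, h2⟩ := hs A1 B1
      refine ⟨A, B, ?_⟩
      have h3 : (G1.satWeight A1 B1 + 2) / 3 ≤ (1 - (1 - G.satWeight A B) / 3 ^ d + 2) / 3 := by
        linarith
      have h4 : (1 - (1 - G.satWeight A B) / 3 ^ d + 2) / 3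
          = 1 - (1 - G.satWeight A B) / 3 ^ (d + 1) := by
        rw [pow_succ]
        field_simp
        ring
      linarith

end Vale.Agent.Results.P339.AlphabetEnlargement
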