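import Vale.Agent.Lib.P339.Binary

namespace Vale.Agent.Results.P339.BinaryAlphabetLinear

open Vale.Agent.Lib.P339

/-- The case `q = 2` (alphabets of sizes 4 and 2).
(1) Every constraint of every 2-to-1 game is an affine equation over the field with two
elements in the two bits of the left label and the bit of the right label.
(2) There are Mal'tsev operations `mL`, `mR` on the two alphabets such that, in every game,
a constraint satisfied by three labelings is satisfied by the labeling obtained from them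
pointwise through `mL`, `mR`; in particular three labelings of weight `1` combine to a
labeling of weight `1`. -/
theorem result :
    (∀ G : Game 2, ∃ c0 c1 c2 : G.E → ZMod 2,
      ∀ (A : G.U → Fin (2 * 2)) (B : G.V → Fin 2) (e : G.E),
        G.proj e (A (G.src e)) = B (G.tgt e) ↔
          (((B (G.tgt e)).val : ℕ) : ZMod 2) =
            c0 e + c1 e * (((A (G.src e)).val % 2 : ℕ) : ZMod 2)
              + c2 e * (((A (G.src e)).val / 2 : ℕ) : ZMod 2)) ∧
    (∃ (mL : Fin (2 * 2) → Fin (2 * 2) → Fin (2 * 2) → Fin (2 * 2))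
        (mR : Fin 2 → Fin 2 → Fin 2 → Fin 2),
      (∀ x y, mL x y y = x ∧ mL y y x = x) ∧ (∀ x y, mR x y y = x ∧ mR y y x = x) ∧
      (∀ (G : Game 2) (A1 A2 A3 : G.U → Fin (2 * 2)) (B1 B2 B3 : G.V → Fin 2) (e : G.E),
        G.proj e (A1 (G.src e)) = B1 (G.tgt e) → G.proj e (A2 (G.src e)) = B2 (G.tgt e) →
        G.proj e (A3 (G.src e)) = B3 (G.tgt e) →
        G.proj e (mL (A1 (G.src e)) (A2 (G.src e)) (A3 (G.src e))) =
          mR (B1 (G.tgt e)) (B2 (G.tgt e)) (B3 (G.tgt e))) ∧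
      (∀ (G : Game 2) (A1 A2 A3 : G.U → Fin (2 * 2)) (B1 B2 B3 : G.V → Fin 2),
        G.satWeight A1 B1 = 1 → G.satWeight A2 B2 = 1 → G.satWeight A3 B3 = 1 →
        G.satWeight (fun u => mL (A1 u) (A2 u) (A3 u)) (fun v => mR (B1 v) (B2 v) (B3 v))
          = 1)) := by
  have hcons : ∀ (G : Game 2) (A1 A2 A3 : G.U → Fin (2 * 2)) (B1 B2 B3 : G.V → Fin 2)
      (e : G.E),
      G.proj e (A1 (G.src e)) = B1 (G.tgt e) → G.proj e (A2 (G.src e)) = B2 (G.tgt e) →
      G.proj e (A3 (G.src e)) = B3 (G.tgt e) →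
      G.proj e (xorL (A1 (G.src e)) (A2 (G.src e)) (A3 (G.src e))) =
        xorR (B1 (G.tgt e)) (B2 (G.tgt e)) (B3 (G.tgt e)) := by
    intro G A1 A2 A3 B1 B2 B3 e h1 h2 h3
    rw [two_to_one_xor (G.proj e) (G.two_to_one e), h1, h2, h3]
  refine ⟨?_, xorL, xorR, xorL_right, xorR_right, hcons, ?_⟩
  · intro G
    have h : ∀ e : G.E, ∃ c0 c1 c2 : ZMod 2, ∀ (a : Fin (2 * 2)) (b : Fin 2),
        G.proj e a = b ↔ ((b.val : ℕ) : ZMod 2) = c0 + c1 * ((a.val % 2 : ℕ) : ZMod 2)
          + c2 * ((a.val / 2 : ℕ) : ZMod 2) :=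
      fun e => two_to_one_affine (G.proj e) (G.two_to_one e)
    choose c0 c1 c2 hc using h
    exact ⟨c0, c1, c2, fun A B e => hc e _ _⟩
  · intro G A1 A2 A3 B1 B2 B3 h1 h2 h3
    rw [Game.satWeight_eq_one_iff] at h1 h2 h3 ⊢
    intro e he
    exact hcons G A1 A2 A3 B1 B2 B3 e (h1 e he) (h2 e he) (h3 e he)

end Vale.Agent.Results.P339.BinaryAlphabetLinear
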