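import Vale.Agent.Lib.P339.NotTwo

namespace Vale.Agent.Results.P339.NotTwoGadget

open Vale.Agent.Lib.P339

/-- A gap-preserving gadget reduction from the Not-Two constraint satisfaction problem to
2-to-1 games with alphabets of sizes `12` and `6`. For every instance with `n` Boolean
variables and `m ≥ 1` clauses (clause `c` has the three literals with variables `var c i` and
negation flags `neg c i`, and is satisfied when the number of its true literals is not two)
there is a 2-to-1 game `G` of linear size such that: every assignment violating a fraction `f`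
of the clauses yields a labeling of weight exactly `1 - f / 5`; every labeling of weight `w`
yields an assignment violating a fraction `f` of the clauses with `w ≤ 1 - f / 5`. In
particular a satisfiable instance gives a game with a labeling of weight `1`, and an instance
in which every assignment violates at least a fraction `3/8 - ε` of the clauses gives a game
all of whose labelings have weight at most `37/40 + ε/5`. -/
theorem result (n m : ℕ) (hm : 0 < m) (var : Fin m → Fin 3 → Fin n)
    (neg : Fin m → Fin 3 → Bool) :
    ∃ G : Game 6,
      Fintype.card G.U = 2 * m ∧ Fintype.card G.V = n + m ∧ Fintype.card G.E = 5 * m ∧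
      (∀ σ : Fin n → Bool, ∃ (A : G.U → Fin (2 * 6)) (B : G.V → Fin 6),
        G.satWeight A B = 1 - violFrac var neg σ / 5) ∧
      (∀ (A : G.U → Fin (2 * 6)) (B : G.V → Fin 6), ∃ σ : Fin n → Bool,
        G.satWeight A B ≤ 1 - violFrac var neg σ / 5) ∧
      ((∃ σ : Fin n → Bool, ∀ c, NotTwo σ (var c) (neg c)) →
        ∃ (A : G.U → Fin (2 * 6)) (B : G.V → Fin 6), G.satWeight A B = 1) ∧
      (∀ ε : ℝ, (∀ σ : Fin n → Bool, 3 / 8 - ε ≤ violFrac var neg σ) →
        ∀ (A : G.U → Fin (2 * 6)) (B : G.V → Fin 6), G.satWeight A B ≤ 37 / 40 + ε / 5) := by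
  refine ⟨ntwGame n m hm var neg, ntwGame_card_U n m hm var neg, ntwGame_card_V n m hm var neg,
    ntwGame_card_E n m hm var neg, ntwGame_complete n m hm var neg,
    ntwGame_sound n m hm var neg, ?_, ?_⟩
  · rintro ⟨σ, hσ⟩
    obtain ⟨A, B, hAB⟩ := ntwGame_complete n m hm var neg σ
    refine ⟨A, B, ?_⟩
    have h0 : violFrac var neg σ = 0 := by
      unfold violFrac
      have hempty : (Finset.univ.filter (fun c => ¬ NotTwo σ (var c) (neg c))) = ∅ := by
        apply Finset.filter_eq_empty_iff.mpr
        intro c _ hc
        exact hc (hσ c)
      rw [hempty]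
      simp
    rw [hAB, h0]
    norm_num
  · intro ε hε A B
    obtain ⟨σ, hσ⟩ := ntwGame_sound n m hm var neg A B
    have h1 := hε σ
    linarith

end Vale.Agent.Results.P339.NotTwoGadget
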