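import Vale.Agent.Lib.P339.Tight

namespace Vale.Agent.Results.P339.TrivialSoundness

open Vale.Agent.Lib.P339

/-- For every `q ≥ 2`: (1) every 2-to-1 game with alphabets of sizes `2q` and `q` has a
labeling satisfying constraints of total probability at least `1/q`; (2) there is such a
game in which every labeling satisfies constraints of total probability exactly `1/q`;
(3) consequently, for `δ < 1/q` no map at all (of whatever running time) from 3-CNF
formulas to such games sends satisfiable formulas to games with a labeling of weight `1`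
and unsatisfiable formulas to games all of whose labelings have weight at most `δ`. -/
theorem result (q : ℕ) (hq : 2 ≤ q) :
    (∀ G : Game q, ∃ A B, (1 : ℝ) / q ≤ G.satWeight A B) ∧
    (∃ G : Game q, ∀ A B, G.satWeight A B = (1 : ℝ) / q) ∧
    (∀ δ : ℝ, δ < 1 / q → ¬ ∃ f : Formula3 → Game q, ∀ φ : Formula3,
        (φ.Sat → ∃ A B, (f φ).satWeight A B = 1) ∧
        (¬ φ.Sat → ∀ A B, (f φ).satWeight A B ≤ δ)) := by
  have h1 : ∀ G : Game q, ∃ A B, (1 : ℝ) / q ≤ G.satWeight A B :=
    fun G => G.exists_labeling (by omega)
  refine ⟨h1, ?_, ?_⟩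
  · have : NeZero q := ⟨by omega⟩
    exact ⟨tightGame q, fun A B => tightGame_satWeight q A B⟩
  · intro δ hδ
    rintro ⟨f, hf⟩
    obtain ⟨φ, hφ⟩ := exists_unsat
    obtain ⟨A, B, hAB⟩ := h1 (f φ)
    have := (hf φ).2 hφ A B
    linarith

end Vale.Agent.Results.P339.TrivialSoundness
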